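import Vale.Agent.P331.Defs

/-!
# P331: correlated laws, order-oblivious rules, several matroids: definitions
-/

namespace Vale.Agent.N331

open MeasureTheory Vale.Agent.P331
open scoped ENNReal NNReal Classical

variable {E : Type} [Fintype E] {M : Matroid E}

/-- `μ` is a joint law of `(S, V)` such that, for every set `X`, the vector which is `V` on `X` and
`S` elsewhere has the law of `V`. -/
def Hybrid (μ : Measure ((E → ℝ≥0) × (E → ℝ≥0))) : Prop :=
  IsProbabilityMeasure μ ∧
    ∀ X : Finset E, μ.map (fun ω => X.piecewise ω.2 ω.1) = μ.map Prod.snd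

/-- `c * E[f V] ≤ E[gain]` for all such laws and every arrival order that is any function of the
seed, the samples and the values. -/
def Robust (R : OnlineRule M) (f : (E → ℝ≥0) → ℝ≥0∞) (c : ℝ) : Prop :=
  ∀ μ, Hybrid μ → ∀ π : R.Seed × (E → ℝ≥0) × (E → ℝ≥0) → Order E,
    ENNReal.ofReal c * ∫⁻ ω, f ω.2 ∂μ ≤ ∫⁻ ω, R.gain ω.1 ω.2.1 ω.2.2 (π ω) ∂(R.law.prod μ)

/-- The seed is discrete and determines a set `T` which contains every element independently with
probability `p`; the rule reads the sample only outside `T` and accepts only elements of `T`. -/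
def Oblivious (R : OnlineRule M) (p : ℝ) : Prop :=
  (∀ S : Set R.Seed, MeasurableSet S) ∧ ∃ T : R.Seed → Finset E,
    (∀ X, R.law {r | T r = X} = ENNReal.ofReal (p ^ X.card * (1 - p) ^ Xᶜ.card)) ∧
    (∀ r s s', (∀ e ∉ T r, s e = s' e) → R.accept r s = R.accept r s') ∧
    ∀ r s h x, R.accept r s h x → x.1 ∈ T r

/-- The largest total value of a set that is independent in all the matroids `N i`. -/
noncomputable def optAll {k : ℕ} (N : Fin k → Matroid E) (v : E → ℝ≥0) : ℝ≥0∞ :=
  ⨆ (I : Finset E) (_ : ∀ i, (N i).Indep (I : Set E)), ∑ e ∈ I, (v e : ℝ≥0∞)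

end Vale.Agent.N331
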