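import Vale.Agent.N331.Static

/-!
# P331: the greedy-relevant elements for several matroids
-/

namespace Vale.Agent.N331

open Finset Vale.Agent.P331 Vale.Agent.P331.Osel Vale.Agent.P331.H819 Vale.Agent.P331.H489
open scoped ENNReal NNReal Classical

variable {E ι : Type} (M : ι → Matroid E)

/-- `G` is the greedy solution inside `S` -/
def IsG (S : E → Prop) (lt : E → E → Prop) (G : Set E) : Prop :=
  ∀ e, e ∈ G ↔ S e ∧ ∀ i, e ∉ (M i).closure {f | f ∈ G ∧ lt e f}

/-- the greedy solution inside `S` -/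
noncomputable def GG (S : E → Prop) (lt : E → E → Prop) : Set E :=
  if h : ∃ G, IsG M S lt G then h.choose else ∅

/-- `e` would improve the greedy solution -/
def rel (S : E → Prop) (lt : E → E → Prop) (e : E) : Prop :=
  ∀ i, e ∉ (M i).closure {f | f ∈ GG M S lt ∧ lt e f}

/-- `e` is relevant and is not spanned by heavier relevant elements -/
def gd (S : E → Prop) (lt : E → E → Prop) (e : E) : Prop :=
  rel M S lt e ∧ ∀ i, e ∉ (M i).closure {f | rel M S lt f ∧ lt e f}

variable {M} {S S' : E → Prop} {lt lt' : E → E → Prop}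

theorem GG_sub {e : E} (h : e ∈ GG M S lt) : S e := by
  unfold GG at h
  split_ifs at h with h1
  · exact ((h1.choose_spec e).1 h).1
  · exact absurd h (Set.notMem_empty e)

theorem GG_congr (h : ∀ f g, S f → S g → (lt f g ↔ lt' f g)) : GG M S lt = GG M S lt' := by
  have key : ∀ {lt lt' : E → E → Prop}, (∀ f g, S f → S g → (lt f g ↔ lt' f g)) →
      ∀ G, IsG M S lt G → IsG M S lt' G := by
    intro lt lt' h G hG e
    refine (hG e).trans (and_congr_right fun he => ?_)
    have : {f | f ∈ G ∧ lt e f} = {f | f ∈ G ∧ lt' e f} :=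
      Set.ext fun f => and_congr_right fun hf => h e f he ((hG f).1 hf).1
    rw [this]
  have : IsG M S lt = IsG M S lt' :=
    funext fun G => propext ⟨key h G, key (fun f g hf hg => (h f g hf hg).symm) G⟩
  unfold GG
  rw [this]

theorem rel_congr (h : ∀ f g, S f → S g → (lt f g ↔ lt' f g)) {e : E}
    (he : ∀ g, S g → (lt e g ↔ lt' e g)) : rel M S lt e ↔ rel M S lt' e := by
  unfold rel
  rw [← GG_congr h]
  have : {f | f ∈ GG M S lt ∧ lt e f} = {f | f ∈ GG M S lt ∧ lt' e f} :=
    Set.ext fun f => and_congr_right fun hf => he f (GG_sub hf)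
  rw [this]

variable [Fintype E]

theorem wf_flip (hlt : IsStrictTotalOrder E lt) : WellFounded fun f e => lt e f := by
  have : IsTrans E fun f e => lt e f := ⟨fun _ _ _ h1 h2 => hlt.trans _ _ _ h2 h1⟩
  have : Std.Irrefl fun f e => lt e f := ⟨fun a => hlt.irrefl a⟩
  exact Finite.wellFounded_of_trans_of_irrefl _

theorem mem_GG (hlt : IsStrictTotalOrder E lt) (e : E) : e ∈ GG M S lt ↔ S e ∧ rel M S lt e := by
  have h : ∃ G, IsG M S lt G := by
    let F : ∀ e, (∀ f, lt e f → Prop) → Prop := fun e g =>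
      S e ∧ ∀ i, e ∉ (M i).closure {f | ∃ h : lt e f, g f h}
    refine ⟨{e | (wf_flip hlt).fix F e}, fun e => ?_⟩
    change (wf_flip hlt).fix F e ↔ _
    rw [WellFounded.fix_eq]
    have : {f | ∃ _ : lt e f, (wf_flip hlt).fix F f} =
        {f | f ∈ {e | (wf_flip hlt).fix F e} ∧ lt e f} :=
      Set.ext fun f => ⟨fun ⟨h1, h2⟩ => ⟨h2, h1⟩, fun ⟨h1, h2⟩ => ⟨h2, h1⟩⟩
    simp only [F]
    rw [this]
  have h2 : IsG M S lt (GG M S lt) := by
    unfold GG
    rw [dif_pos h]
    exact h.choose_spec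
  exact h2 e

theorem rel_coin (hlt : IsStrictTotalOrder E lt) (e : E) (h : ∀ f, lt e f → (S f ↔ S' f)) :
    rel M S lt e ↔ rel M S' lt e := by
  induction e using (wf_flip hlt).induction with
  | _ e ih =>
    have : {f | f ∈ GG M S lt ∧ lt e f} = {f | f ∈ GG M S' lt ∧ lt e f} :=
      Set.ext fun f => and_congr_left fun hf => by
        rw [mem_GG hlt, mem_GG hlt, h f hf, ih f hf fun g hg => h g (hlt.trans _ _ _ hf hg)]
    unfold rel
    rw [this]

theorem gd_coin (hlt : IsStrictTotalOrder E lt) (e : E) (h : ∀ f, lt e f → (S f ↔ S' f)) :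
    gd M S lt e ↔ gd M S' lt e := by
  have : {f | rel M S lt f ∧ lt e f} = {f | rel M S' lt f ∧ lt e f} :=
    Set.ext fun f => and_congr_left fun hf =>
      rel_coin hlt f fun g hg => h g (hlt.trans _ _ _ hf hg)
  unfold gd
  rw [this, rel_coin hlt e h]

/-- `x` if `P` holds, otherwise `0` -/
noncomputable def iv (P : Prop) (x : ℝ) : ℝ := if P then x else 0

theorem iv_pos {P : Prop} (h : P) (x : ℝ) : iv P x = x := if_pos h

theorem iv_neg {P : Prop} (h : ¬ P) (x : ℝ) : iv P x = 0 := if_neg h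

theorem iv_mono {P Q : Prop} (h : P → Q) {x : ℝ} (hx : 0 ≤ x) : iv P x ≤ iv Q x := by
  by_cases h1 : P
  · rw [iv_pos h1, iv_pos (h h1)]
  · rw [iv_neg h1]
    unfold iv
    split_ifs
    exacts [hx, le_rfl]

theorem iv_nonneg (P : Prop) {x : ℝ} (hx : 0 ≤ x) : 0 ≤ iv P x :=
  (iv_neg not_false x).ge.trans (iv_mono False.elim hx)

theorem iv_le (P : Prop) {x : ℝ} (hx : 0 ≤ x) : iv P x ≤ x :=
  (iv_mono (fun _ => trivial) hx).trans_eq (iv_pos trivial x)

/-- total weight of the elements with property `A` -/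
noncomputable def wt (u : E → ℝ≥0) (A : E → Prop) : ℝ := ∑ e, iv (A e) (u e)

theorem wt_le {N : Matroid E} {u : E → ℝ≥0} {A B : E → Prop} (hA : N.Indep {e | A e})
    (h : ∀ e, A e → e ∈ N.closure {f | B f ∧ u e ≤ u f}) : wt u A ≤ wt u B := by
  have h1 := sum_le_sum_of_card (v := u) (univ.filter A) (univ.filter B) fun t _ => by
    set I := (univ.filter A).filter fun e => t < u e with hI
    set G := (univ.filter B).filter fun e => t < u e with hG
    have h2 : N.Indep (I : Set E) := hA.subset fun e he => by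
      simpa using (mem_filter.1 (mem_filter.1 (mem_coe.1 he)).1).2
    have h3 : (I : Set E) ⊆ N.closure (G : Set E) := fun e he => by
      have h4 := mem_filter.1 (mem_coe.1 he)
      refine N.closure_subset_closure (fun f hf => ?_) (h e (mem_filter.1 h4.1).2)
      exact mem_coe.2 (mem_filter.2 ⟨mem_filter.2 ⟨mem_univ _, hf.1⟩,
        h4.2.trans_le (by exact_mod_cast hf.2)⟩)
    have h5 : (I.card : ℕ∞) ≤ G.card := by
      rw [← Set.encard_coe_eq_coe_finsetCard, ← Set.encard_coe_eq_coe_finsetCard,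
        ← h2.eRk_eq_encard]
      exact ((N.eRk_mono h3).trans_eq (N.eRk_closure_eq _)).trans (N.eRk_le_encard _)
    exact_mod_cast h5
  unfold wt iv
  rw [← sum_filter, ← sum_filter]
  rw [← ENNReal.ofNNReal_finsetSum, ← ENNReal.ofNNReal_finsetSum] at h1
  exact_mod_cast h1

variable {u : E → ℝ≥0}

theorem indep_of_klt {N : Matroid E} (hN : N.E = Set.univ) {A : E → Prop}
    (h : ∀ e, A e → e ∉ N.closure {f | A f ∧ klt u e f}) : N.Indep {e | A e} := by
  have h1 := eRk_union_eq hN (key u) (key_inj u) ∅ (univ.filter A)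
    (fun e he hcl => h e (mem_filter.1 he).2 (by
      refine N.closure_subset_closure ?_ hcl
      rw [Set.empty_union]
      exact fun f hf => ⟨(mem_filter.1 hf.1).2, hf.2⟩))
  rw [Set.empty_union, N.eRk_empty, zero_add] at h1
  rw [← coe_filter_univ, Matroid.indep_iff_eRk_eq_encard_of_finite (Finset.finite_toSet _), h1,
    Set.encard_coe_eq_coe_finsetCard]

theorem span_greedy {N : Matroid E} (hN : N.E = Set.univ) (A : E → Prop) (e : E) (he : A e) :
    e ∈ N.closure {f | (A f ∧ f ∉ N.closure {g | A g ∧ klt u f g}) ∧ u e ≤ u f} := by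
  induction e using (wf_flip (Data.klt_strict u)).induction with
  | _ e ih =>
    by_cases h : e ∈ N.closure {g | A g ∧ klt u e g}
    · refine N.closure_subset_closure_of_subset_closure (fun f hf => ?_) h
      refine N.closure_subset_closure (fun g hg => ?_) (ih f hf.2 hf.1)
      exact ⟨hg.1, (le_of_key_lt hf.2).trans hg.2⟩
    · exact N.mem_closure_of_mem' ⟨⟨he, h⟩, le_rfl⟩ (by rw [hN]; trivial)

theorem wt_nonneg (A : E → Prop) : 0 ≤ wt u A :=
  sum_nonneg fun e _ => iv_nonneg _ (u e).2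

theorem wt_split (S : E → Prop) : wt u (rel M S (klt u)) =
    wt u (fun e => e ∈ GG M S (klt u)) + wt u (fun e => ¬ S e ∧ rel M S (klt u) e) := by
  unfold wt
  rw [← sum_add_distrib]
  refine sum_congr rfl fun e _ => ?_
  beta_reduce
  rw [mem_GG (Data.klt_strict u)]
  by_cases h1 : S e <;> by_cases h2 : rel M S (klt u) e <;> simp [h1, h2, iv]

variable [Fintype ι]

theorem wt_opt [Nonempty ι] (hM : ∀ i, (M i).E = Set.univ) (S : E → Prop) {I : Finset E}
    (hI : ∀ i, (M i).Indep I) :
    wt u (· ∈ I) ≤ Fintype.card ι * wt u (rel M S (klt u)) := by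
  set G := GG M S (klt u) with hG
  have h1 : wt u (· ∈ I) ≤ wt u (fun e => ¬ S e ∧ rel M S (klt u) e) +
      ∑ i, wt u (fun e => e ∈ I ∧ e ∈ (M i).closure {f | f ∈ G ∧ u e ≤ u f}) := by
    unfold wt
    rw [sum_comm, ← sum_add_distrib]
    refine sum_le_sum fun e _ => ?_
    beta_reduce
    have h0 : ∀ i, 0 ≤ iv (e ∈ I ∧ e ∈ (M i).closure {f | f ∈ G ∧ u e ≤ u f}) (u e) :=
      fun i => iv_nonneg _ (u e).2
    have h2 := sum_nonneg (s := univ) fun i _ => h0 i
    by_cases h3 : ¬ S e ∧ rel M S (klt u) e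
    · rw [iv_pos h3]
      linarith [iv_le (e ∈ I) (u e).coe_nonneg]
    rw [iv_neg h3, zero_add]
    by_cases he : e ∈ I
    · obtain ⟨i, hi⟩ : ∃ i, e ∈ (M i).closure {f | f ∈ G ∧ u e ≤ u f} := by
        by_cases h4 : rel M S (klt u) e
        · exact ⟨Classical.arbitrary ι, (M _).mem_closure_of_mem' ⟨(mem_GG (Data.klt_strict u)
            e).2 ⟨by tauto, h4⟩, le_rfl⟩ (by rw [hM]; trivial)⟩
        · obtain ⟨i, hi⟩ := not_forall.1 h4
          refine ⟨i, (M i).closure_subset_closure (fun f hf => ?_) (not_not.1 hi)⟩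
          exact ⟨hf.1, le_of_key_lt hf.2⟩
      have h5 := single_le_sum (fun i _ => h0 i) (mem_univ i)
      rw [iv_pos ⟨he, hi⟩] at h5
      rwa [iv_pos he]
    · rwa [iv_neg he]
  have h2 : ∑ i, wt u (fun e => e ∈ I ∧ e ∈ (M i).closure {f | f ∈ G ∧ u e ≤ u f}) ≤
      ∑ _i : ι, wt u (· ∈ G) :=
    sum_le_sum fun i _ => wt_le (N := M i) ((hI i).subset fun e he => he.1) fun e he => he.2
  rw [sum_const, card_univ, nsmul_eq_mul] at h2
  have h3 : (1 : ℝ) ≤ Fintype.card ι := by exact_mod_cast Fintype.card_pos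
  have h4 := wt_nonneg (u := u) (fun e => ¬ S e ∧ rel M S (klt u) e)
  rw [wt_split]
  nlinarith

theorem wt_gd (hM : ∀ i, (M i).E = Set.univ) (S : E → Prop) :
    wt u (rel M S (klt u)) ≤ wt u (gd M S (klt u)) +
      Fintype.card ι * wt u (fun e => ¬ S e ∧ rel M S (klt u) e) := by
  set H := rel M S (klt u) with hH
  have h1 : ∀ i, wt u (· ∈ GG M S (klt u)) ≤
      wt u (fun f => H f ∧ f ∉ (M i).closure {g | H g ∧ klt u f g}) := fun i =>
    wt_le (N := M i) (indep_of_klt (u := u) (hM i) fun e he =>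
      ((mem_GG (Data.klt_strict u) e).1 he).2 i) fun e he =>
      span_greedy (hM i) H e ((mem_GG (Data.klt_strict u) e).1 he).2
  have h2 : wt u H ≤ wt u (gd M S (klt u)) +
      ∑ i, (wt u H - wt u (fun f => H f ∧ f ∉ (M i).closure {g | H g ∧ klt u f g})) := by
    unfold wt
    simp only [← sum_sub_distrib]
    rw [sum_comm, ← sum_add_distrib]
    refine sum_le_sum fun e _ => ?_
    beta_reduce
    have h0 : ∀ i, 0 ≤ iv (H e) (u e) -
        iv (H e ∧ e ∉ (M i).closure {g | H g ∧ klt u e g}) (u e) := fun i =>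
      sub_nonneg.2 (iv_mono And.left (u e).2)
    have h2 := sum_nonneg (s := univ) fun i _ => h0 i
    by_cases h3 : gd M S (klt u) e
    · rw [iv_pos h3]
      linarith [iv_le (H e) (u e).coe_nonneg]
    rw [iv_neg h3, zero_add]
    by_cases he : H e
    · obtain ⟨i, hi⟩ := not_forall.1 fun h => h3 ⟨he, h⟩
      have h5 := single_le_sum (fun i _ => h0 i) (mem_univ i)
      rwa [iv_neg (fun h : H e ∧ _ => hi h.2), sub_zero] at h5
    · exact (iv_neg he _).trans_le h2
  have h3 : ∑ i, (wt u H - wt u (fun f => H f ∧ f ∉ (M i).closure {g | H g ∧ klt u f g})) ≤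
      ∑ _i : ι, wt u (fun e => ¬ S e ∧ H e) :=
    sum_le_sum fun i _ => by linarith [h1 i, wt_split (M := M) (u := u) S]
  rw [sum_const, card_univ, nsmul_eq_mul] at h3
  linarith

theorem EX_indep {L : Type} [Fintype L] [DecidableEq L] {w : L → ℝ} (hw : ∑ l, w l = 1) (z : E)
    (l₀ : L) (F : (E → L) → ℝ) (hF : ∀ ω l, F (Function.update ω z l) = F ω) :
    EX (fun _ : E => w) (fun ω => if ω z = l₀ then F ω else 0) =
      w l₀ * EX (fun _ : E => w) F := by
  rw [EX_cond z l₀ l₀]
  congr 1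
  rw [EX_split z l₀ (fun _ : E => w) F]
  simp only [hF]
  rw [← sum_mul, hw, one_mul]

omit [Fintype ι] in
theorem EX_wt {w : Bool → ℝ} (hw : ∑ l, w l = 1) (A : (E → Bool) → E → Prop)
    (hA : ∀ c z l, A (Function.update c z l) z ↔ A c z) :
    EX (fun _ : E => w) (fun c => wt u fun e => ¬ c e = true ∧ A c e) =
      w false * EX (fun _ : E => w) fun c => wt u (A c) := by
  unfold wt
  rw [EX_sum, EX_sum, mul_sum]
  refine sum_congr rfl fun z _ => ?_
  rw [← EX_indep hw z false _ fun c l => by rw [hA]]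
  congr 1
  funext c
  by_cases h1 : c z = true <;> simp [h1, iv]

/-- the expected weight of the good relevant elements outside the first sample -/
theorem EX_gd [Nonempty ι] (hM : ∀ i, (M i).E = Set.univ) {w : Bool → ℝ} (hw : ∑ l, w l = 1)
    (h0 : ∀ l, 0 ≤ w l) (h1 : 2 * Fintype.card ι * w false = 1) {I : Finset E}
    (hI : ∀ i, (M i).Indep I) :
    wt u (· ∈ I) ≤ 4 * Fintype.card ι ^ 2 * EX (fun _ : E => w)
      fun c => wt u fun e => ¬ c e = true ∧ gd M (c · = true) (klt u) e := by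
  have hlt := Data.klt_strict u
  have hc : ∀ (c : E → Bool) z l f, klt u z f →
      (Function.update c z l f = true ↔ c f = true) := fun c z l f hf => by
    rw [Function.update_of_ne fun h : f = z => hlt.irrefl z (h ▸ hf)]
  have e1 := EX_wt (u := u) hw (fun c => gd M (c · = true) (klt u)) fun c z l =>
    gd_coin hlt z (hc c z l)
  have e2 := EX_wt (u := u) hw (fun c => rel M (c · = true) (klt u)) fun c z l =>
    rel_coin hlt z (hc c z l)
  have e3 := EX_mono (w := fun _ : E => w) (fun _ => h0) fun c : E → Bool =>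
    wt_gd (u := u) hM (c · = true)
  have e4 := EX_mono (w := fun _ : E => w) (fun _ => h0) fun c : E → Bool =>
    wt_opt (u := u) hM (c · = true) hI
  rw [EX_add, EX_mul, e2] at e3
  rw [EX_one _ fun _ => hw, EX_mul] at e4
  rw [e1]
  set k : ℝ := (Fintype.card ι : ℝ)
  set x := EX (fun _ : E => w) fun c => wt u (gd M (c · = true) (klt u))
  set y := EX (fun _ : E => w) fun c => wt u (rel M (c · = true) (klt u))
  have hk : 0 ≤ k := Nat.cast_nonneg _
  have e5 : k * (w false * y) = y / 2 := by linear_combination y / 2 * h1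
  have e6 : 4 * k ^ 2 * (w false * x) = k * (2 * x) := by linear_combination 2 * k * x * h1
  rw [e6]
  exact e4.trans (mul_le_mul_of_nonneg_left (by linarith) hk)

end Vale.Agent.N331
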