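import Vale.Agent.N331.Greedy

/-!
# P331: the static rule for an intersection of matroids
-/

namespace Vale.Agent.N331

open Finset MeasureTheory Vale.Agent.P331 Vale.Agent.P331.Osel Vale.Agent.P331.H819
  Vale.Agent.P331.H489 Vale.Agent.P331.H352
open scoped ENNReal NNReal Classical

variable {E ι L : Type} [Fintype E] [Fintype L] [DecidableEq L]

/-- the order in which the elements outside `A` are the lightest -/
def ltA (A : E → Prop) (lt : E → E → Prop) (e f : E) : Prop :=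
  (A e → A f ∧ lt e f) ∧ (¬ A e → A f ∨ lt e f)

omit [Fintype E] in
theorem ltA_strict (A : E → Prop) {lt : E → E → Prop} (h : IsStrictTotalOrder E lt) :
    IsStrictTotalOrder E (ltA A lt) where
  trichotomous := fun a b h1 h2 => by
    unfold ltA at h1 h2
    refine h.trichotomous a b ?_ ?_ <;> tauto
  irrefl := fun a h1 => by
    have := h.irrefl a
    unfold ltA at h1
    tauto
  trans := fun a b c h1 h2 => by
    have := h.trans a b c
    unfold ltA at *
    tauto

/-- the relevant elements outside the first sample -/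
def RR (M : ι → Matroid E) (c : E → Bool) (lt : E → E → Prop) (e : E) : Prop :=
  ¬ c e = true ∧ rel M (c · = true) lt e

variable (M : ι → Matroid E) (D : ι → Frame E L) (w : Bool → ℝ) (hw : ∑ l, w l = 1)
  (h0 : ∀ l, 0 ≤ w l) (i₀ : ι) (hv : ∀ i, (D i).v = (D i₀).v)

/-- the static rule for the intersection -/
noncomputable def dat : Data (Matroid.freeOn (Set.univ : Set E)) where
  Sd := (E → Bool) × (E → L)
  w := fun x => ENNReal.ofReal ((∏ e, w (x.1 e)) * ∏ e, (D i₀).w (x.2 e))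
  w_sum := by
    rw [← ENNReal.ofReal_sum_of_nonneg fun x _ =>
      mul_nonneg (prod_nonneg fun e _ => h0 _) (prod_nonneg fun e _ => (D i₀).w0 _)]
    have h1 := EX_one (fun _ : E => w) (fun _ => hw) 1
    have h2 := EX_one (fun _ : E => (D i₀).w) (fun _ => (D i₀).w1) 1
    unfold EX at h1 h2
    simp only [mul_one] at h1 h2
    rw [Fintype.sum_prod_type]
    dsimp only
    rw [← sum_mul_sum, h1, h2, mul_one, ENNReal.ofReal_one]
  T := fun x e => ¬ x.1 e = true ∧ x.2 e = (D i₀).v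
  Leg := fun x lt B => (∀ z ∈ B, RR M x.1 lt z) ∧
    ∀ i, Leg (D i) (M i) x.2 (ltA (RR M x.1 lt) lt) B
  empty := fun x lt => ⟨fun z hz => absurd hz (Set.notMem_empty z),
    fun i => ((D i).data (M i)).empty _ _⟩
  loc := by
    intro x lt lt' B hB h hL
    have h1 : ∀ f, (f ∈ B ∨ ¬ (¬ x.1 f = true ∧ x.2 f = (D i₀).v)) →
        (RR M x.1 lt f ↔ RR M x.1 lt' f) := fun f hf =>
      and_congr_right fun _ => rel_congr
        (fun a b ha hb => h a b (Or.inr fun h => h.1 ha) (Or.inr fun h => h.1 hb))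
        fun g hg => h f g hf (Or.inr fun h => h.1 hg)
    refine ⟨fun z hz => (h1 z (Or.inl hz)).1 (hL.1 z hz), fun i =>
      ((D i).data (M i)).loc x.2 _ _ B (fun f hf => (hB f hf).2.trans (hv i).symm)
        (fun f g hf hg => ?_) (hL.2 i)⟩
    have hf' : f ∈ B ∨ ¬ (¬ x.1 f = true ∧ x.2 f = (D i₀).v) :=
      hf.imp_right fun h1 h2 => h1 (h2.2.trans (hv i).symm)
    have hg' : g ∈ B ∨ ¬ (¬ x.1 g = true ∧ x.2 g = (D i₀).v) :=
      hg.imp_right fun h1 h2 => h1 (h2.2.trans (hv i).symm)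
    unfold ltA
    rw [h1 f hf', h1 g hg', h f g hf' hg']
  indep := fun _ _ _ B _ _ => Matroid.freeOn_indep (Set.subset_univ B)

theorem dat_indep (r : (dat M D w hw h0 i₀ hv).Sd) (s : E → ℝ≥0) (h : List (E × ℝ≥0))
    (hnd : (h.map Prod.fst).Nodup) (i : ι) :
    (M i).Indep (accepted ((dat M D w hw h0 i₀ hv).dec r s) h : Set E) := by
  obtain ⟨u, hu⟩ := exists_hs h hnd
  rw [hu]
  exact ((Data.LE_accepted (D := dat M D w hw h0 i₀ hv) r s u _).1.2 i).1

theorem dat_safe {x : (E → Bool) × (E → L)} {lt : E → E → Prop} {z : E} (hz : RR M x.1 lt z)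
    (h : ∀ i, Good (D i) (M i) (ltA (RR M x.1 lt) lt) z x.2) :
    (dat M D w hw h0 i₀ hv).T x z ∧ (dat M D w hw h0 i₀ hv).Safe x lt z := by
  refine ⟨⟨hz.1, (h i₀).1⟩, fun B hB hL => ⟨?_, fun i => (h i).2 B
    (fun f hf => ⟨(hB f hf).1, (hB f hf).2.2.trans (hv i).symm⟩) (hL.2 i)⟩⟩
  rintro f (rfl | hf)
  exacts [hz, hL.1 f hf]

variable [Fintype ι]

include hv in
theorem prob_all (hwi : ∀ i, (D i).w = (D i₀).w) {lt : E → E → Prop} {z : E}
    (h : ∀ i, (D i₀).w (D i₀).v - (D i₀).w (D i₀).v / (2 * Fintype.card ι) ≤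
      EX (fun _ => (D i).w) fun ω : E → L => if Good (D i) (M i) lt z ω then 1 else 0) :
    (D i₀).w (D i₀).v / 2 ≤
      EX (fun _ => (D i₀).w) fun ω : E → L => iv (∀ i, Good (D i) (M i) lt z ω) 1 := by
  have hk : (0 : ℝ) < Fintype.card ι := by exact_mod_cast Fintype.card_pos_iff.2 ⟨i₀⟩
  have h1 := EX_indep (D i₀).w1 z (D i₀).v (fun _ => 1) fun _ _ => rfl
  rw [EX_one _ fun _ => (D i₀).w1, mul_one] at h1
  have h2 : ∀ ω : E → L, (if ω z = (D i₀).v then (1 : ℝ) else 0) ≤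
      iv (∀ i, Good (D i) (M i) lt z ω) 1 + ∑ i, ((if ω z = (D i₀).v then (1 : ℝ) else 0) -
        if Good (D i) (M i) lt z ω then 1 else 0) := by
    intro ω
    have h3 : ∀ i, 0 ≤ (if ω z = (D i₀).v then (1 : ℝ) else 0) -
        if Good (D i) (M i) lt z ω then 1 else 0 := fun i => by
      by_cases h4 : Good (D i) (M i) lt z ω
      · rw [if_pos h4, if_pos (h4.1.trans (hv i)), sub_self]
      · rw [if_neg h4, sub_zero]
        exact ind0
    have h4 := sum_nonneg (s := univ) fun i _ => h3 i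
    by_cases h5 : ∀ i, Good (D i) (M i) lt z ω
    · rw [iv_pos h5]
      have h6 : (if ω z = (D i₀).v then (1 : ℝ) else 0) ≤ 1 := by split_ifs <;> norm_num
      linarith
    · obtain ⟨i, hi⟩ := not_forall.1 h5
      have h6 := single_le_sum (fun i _ => h3 i) (mem_univ i)
      rw [if_neg hi, sub_zero] at h6
      rwa [iv_neg h5, zero_add]
  have h3 := EX_mono (w := fun _ : E => (D i₀).w) (fun _ => (D i₀).w0) h2
  rw [EX_add, EX_sum, h1] at h3
  have h4 : ∑ i, EX (fun _ : E => (D i₀).w) (fun ω => (if ω z = (D i₀).v then (1 : ℝ) else 0) -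
      if Good (D i) (M i) lt z ω then 1 else 0) ≤
      ∑ _i : ι, (D i₀).w (D i₀).v / (2 * Fintype.card ι) := sum_le_sum fun i _ => by
    have h5 := h i
    rw [hwi i] at h5
    rw [EX_sub, h1]
    linarith
  rw [sum_const, card_univ, nsmul_eq_mul] at h4
  have h5 : (Fintype.card ι : ℝ) * ((D i₀).w (D i₀).v / (2 * Fintype.card ι)) =
      (D i₀).w (D i₀).v / 2 := by field_simp
  linarith

theorem dat_gain (hM : ∀ i, (M i).E = Set.univ) (hwi : ∀ i, (D i).w = (D i₀).w)
    (h1 : 2 * Fintype.card ι * w false = 1)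
    (h : ∀ i lt, IsStrictTotalOrder E lt → ∀ z, z ∉ (M i).closure {f | lt z f} →
      (D i₀).w (D i₀).v - (D i₀).w (D i₀).v / (2 * Fintype.card ι) ≤
        EX (fun _ => (D i).w) fun ω : E → L => if Good (D i) (M i) lt z ω then 1 else 0)
    (u : E → ℝ≥0) {I : Finset E} (hI : ∀ i, (M i).Indep I) :
    ENNReal.ofReal ((D i₀).w (D i₀).v / 2 / (4 * Fintype.card ι ^ 2)) * ∑ e ∈ I, (u e : ℝ≥0∞) ≤
      ∑ r, (dat M D w hw h0 i₀ hv).w r * ⨅ o, (dat M D w hw h0 i₀ hv).rule.gain r u u o := by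
  have : Nonempty ι := ⟨i₀⟩
  have hk : (0 : ℝ) < Fintype.card ι := by exact_mod_cast Fintype.card_pos
  have hp := (D i₀).w0 (D i₀).v
  set p := (D i₀).w (D i₀).v with hpd
  let A : (E → Bool) × (E → L) → E → Prop := fun x z => RR M x.1 (klt u) z ∧
    ∀ i, Good (D i) (M i) (ltA (RR M x.1 (klt u)) (klt u)) z x.2
  have e1 : ∀ c : E → Bool, p / 2 * wt u (fun e => ¬ c e = true ∧ gd M (c · = true) (klt u) e) ≤
      EX (fun _ => (D i₀).w) fun ω : E → L => wt u (A (c, ω)) := by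
    intro c
    unfold wt
    rw [EX_sum, mul_sum]
    refine sum_le_sum fun z _ => ?_
    by_cases hz : ¬ c z = true ∧ gd M (c · = true) (klt u) z
    · have hR : RR M c (klt u) z := ⟨hz.1, hz.2.1⟩
      have h2 := prob_all M D i₀ hv hwi (lt := ltA (RR M c (klt u)) (klt u)) (z := z) fun i =>
        h i _ (ltA_strict _ (Data.klt_strict u)) z fun hc => hz.2.2 i
          ((M i).closure_subset_closure (fun f hf => by
            exact ⟨(hf.1 hR).1.2, (hf.1 hR).2⟩) hc)
      rw [iv_pos hz, mul_comm]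
      refine (mul_le_mul_of_nonneg_left h2 (u z).2).trans ?_
      rw [← EX_mul]
      refine EX_mono (fun _ => (D i₀).w0) fun ω => ?_
      by_cases h3 : ∀ i, Good (D i) (M i) (ltA (RR M c (klt u)) (klt u)) z ω
      · rw [iv_pos h3, iv_pos (P := A (c, ω) z) ⟨hR, h3⟩]
        exact (mul_one _).le
      · rw [iv_neg h3, mul_zero]
        exact iv_nonneg _ (u z).2
    · rw [iv_neg hz, mul_zero]
      exact EX_nonneg (fun _ => (D i₀).w0) fun ω => iv_nonneg _ (u z).2
  have e2 := EX_mono (w := fun _ : E => w) (fun _ => h0) e1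
  rw [EX_mul] at e2
  have e3 := EX_gd (u := u) hM hw h0 h1 hI
  have e4 : p / 2 / (4 * Fintype.card ι ^ 2) * wt u (· ∈ I) ≤ ∑ x : (E → Bool) × (E → L),
      ((∏ e, w (x.1 e)) * ∏ e, (D i₀).w (x.2 e)) * wt u (A x) := by
    refine (mul_le_mul_of_nonneg_left e3 (by positivity)).trans ?_
    rw [← mul_assoc, div_mul_cancel₀ _ (by positivity)]
    refine e2.trans_eq ?_
    unfold EX
    rw [Fintype.sum_prod_type]
    simp only [mul_sum, mul_assoc]
  have e5 : ∀ B : E → Prop, ENNReal.ofReal (wt u B) = ∑ e ∈ univ.filter B, (u e : ℝ≥0∞) := by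
    intro B
    unfold wt iv
    rw [← sum_filter, ENNReal.ofReal_sum_of_nonneg fun e _ => (u e).coe_nonneg]
    simp only [ENNReal.ofReal_coe_nnreal]
  have e6 : ∑ e ∈ I, (u e : ℝ≥0∞) = ENNReal.ofReal (wt u (· ∈ I)) := by
    rw [e5]
    congr 1
    ext e
    simp
  have hn : ∀ x : (E → Bool) × (E → L), 0 ≤ (∏ e, w (x.1 e)) * ∏ e, (D i₀).w (x.2 e) := fun x =>
    mul_nonneg (prod_nonneg fun e _ => h0 _) (prod_nonneg fun e _ => (D i₀).w0 _)
  rw [e6, ← ENNReal.ofReal_mul (by positivity)]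
  refine (ENNReal.ofReal_le_ofReal e4).trans ?_
  rw [ENNReal.ofReal_sum_of_nonneg fun x _ => mul_nonneg (hn x) (wt_nonneg _)]
  refine sum_le_sum fun x _ => ?_
  rw [ENNReal.ofReal_mul (hn x), e5]
  refine mul_le_mul_right (le_iInf fun o => sum_le_sum_of_subset fun z hz => ?_) _
  have h2 : A x z := by simpa only [mem_filter, mem_univ, true_and] using hz
  have h3 := dat_safe M D w hw h0 i₀ hv h2.1 h2.2
  exact mem_accepted h3.1 h3.2 o

end Vale.Agent.N331
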