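import Vale.Agent.P331.F.FinalA

/-!
# P331: an explicit value of the constant
-/

namespace Vale.Agent.N331

open Finset Vale.Agent.P331 Vale.Agent.P331.H489 Vale.Agent.P331.H316 Vale.Agent.P331.H679
open scoped Classical

/-- the blame is small -/
def Small (κ p s₁ s₂ : ℝ) (P : Par) : Prop :=
  ∀ (E : Type) [Fintype E] (D : Finset E → Prop), Up D → ∀ (b : E) (m : ℕ),
    ∑ j ∈ range m, PR p s₁ s₂ (fun V R I => ind (Ev D P R I j b V)) ≤
      Th s₁ s₂ P / (2 * κ) * Jn D (Th s₁ s₂ P) b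

theorem good_of {κ x t m₀ L : ℝ} (hκ : 1 ≤ κ) (hx : 0 < x) (hx1 : x ≤ 1 / 100) (ht : 0 < t) (ht1 : t ≤ 1 / 2)
    (hm : 1 ≤ m₀) (hL : 40000000 ≤ L) (hL1 : 400 * m₀ < L)
    (hKle : Real.log (6 + 2 * (1 / (Th (1 / 4) (1 / 4) (par x t m₀ L) *
      (1 - Th (1 / 4) (1 / 4) (par x t m₀ L))))) ≤ m₀)
    (hlog : Real.log (4 * κ / Th (1 / 4) (1 / 4) (par x t m₀ L)) ≤ 100 * m₀)
    (hoc : OneC 6400 (pp x L) (xr (1 / 4) (par x t m₀ L)) (1 / 4) t (1 / 2)) :
    Good (pp x L) (1 / 4) (1 / 4) (par x t m₀ L) ∧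
      Small κ (pp x L) (1 / 4) (1 / 4) (par x t m₀ L) := by
  have hΘ0 := Th_pos (m₀ := m₀) (L := L) hx hx1 ht
  have hΘ1 := Th_lt (m₀ := m₀) (L := L) hx hx1 ht1
  have hL0 : 0 < L := by linarith
  set P := par x t m₀ L with hP
  set Θ := Th (1 / 4) (1 / 4) P with hΘ
  have hp0 := pp_pos (L := L) hx
  have hp1 := pp_le hx hL0.le
  have heps : ∀ j, P.eps j < 1 := fun j => by
    show 1 / 2 * Real.exp (-(mm m₀ j) / 32) < 1
    have h : Real.exp (-(mm m₀ j) / 32) ≤ 1 := Real.exp_le_one_iff.2 (by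
      have := mm_one_le hm j
      linarith)
    linarith
  have hlam : ∀ j, P.lam j < 1 := fun j => by
    show Real.exp (-50 * mm m₀ j) < 1
    rw [← Real.exp_zero]
    refine Real.exp_lt_exp.2 ?_
    have := mm_one_le hm j
    linarith
  have hzet : ∀ j, P.zet j < 1 := fun j => by
    show Real.exp (-100 * mm m₀ j) < 1
    rw [← Real.exp_zero]
    refine Real.exp_lt_exp.2 ?_
    have := mm_one_le hm j
    linarith
  have hsm : Small κ (pp x L) (1 / 4) (1 / 4) P := by
    intro E _ D hD b N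
    have hJ : 0 ≤ Jn D Θ b := Jn_nonneg D hΘ0.le hΘ1.le b
    have hj : ∀ j : ℕ, Real.exp (-(mm m₀ (j + 1)) / 2) ≤ Θ / (4 * κ) * (1 / 2) ^ j := by
      intro j
      have h1 := mm_ge (zero_le_one.trans hm) j
      have h2 : (1 / 2 : ℝ) ^ j = Real.exp (j * -Real.log 2) := by
        rw [Real.exp_nat_mul, Real.exp_neg, Real.exp_log (by norm_num), one_div]
      have h3 : Θ / (4 * κ) = Real.exp (- Real.log (4 * κ / Θ)) := by
        rw [Real.exp_neg, Real.exp_log (by positivity), inv_div]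
      rw [h2, h3, ← Real.exp_add]
      refine Real.exp_le_exp.2 ?_
      rw [mm_succ]
      have h4 : Real.log 2 ≤ 1 := by
        have := Real.log_le_sub_one_of_pos (show (0 : ℝ) < 2 by norm_num)
        linarith
      have h5 : (0 : ℝ) ≤ j := Nat.cast_nonneg j
      have h6 : 0 ≤ Real.log 2 := Real.log_nonneg (by norm_num)
      nlinarith
    calc ∑ j ∈ range N, PR (pp x L) (1 / 4) (1 / 4) (fun V R I => ind (Ev D P R I j b V))
        ≤ ∑ j ∈ range N, Θ / (4 * κ) * (1 / 2) ^ j * Jn D Θ b :=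
          sum_le_sum fun j _ => (ev_le F.rowCOREA F.rowSTEPA rowCH hx hx1 ht ht1 hm hL hKle hoc
            E D hD b j).trans (mul_le_mul_of_nonneg_right (hj j) hJ)
      _ = Θ / (4 * κ) * (∑ j ∈ range N, (1 / 2 : ℝ) ^ j) * Jn D Θ b := by
          rw [mul_sum, sum_mul]
      _ ≤ Θ / (4 * κ) * 2 * Jn D Θ b := by
          refine mul_le_mul_of_nonneg_right ?_ hJ
          refine mul_le_mul_of_nonneg_left ?_ (by positivity)
          exact sum_geometric_two_le N
      _ = Θ / (2 * κ) * Jn D Θ b := by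
          field_simp
          ring
  refine ⟨⟨hp0, by norm_num, by norm_num, by linarith,
    by show 0 < x / 20; linarith, by show x / 20 < 1; linarith, hx, by show x < 1; linarith,
    ht, by show t < 1; linarith, hΘ0, hΘ1, kap_zero hm hL1, heps 0,
    hlam 0, hzet 0, fun j => ⟨mul_nonneg (by norm_num) (Real.exp_pos _).le, heps j,
      (Real.exp_pos _).le, hlam j, (Real.exp_pos _).le, hzet j⟩, ?_, ?_, ?_⟩, hsm⟩
  · intro N
    obtain ⟨n₀, hn₀⟩ := exists_nat_ge (N * L)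
    refine ⟨n₀, fun n hn => ?_⟩
    refine Nat.le_floor ?_
    rw [le_div_iff₀ hL0]
    have h1 := mm_ge (zero_le_one.trans hm) (n + 1)
    have h2 : (n₀ : ℝ) ≤ n := by exact_mod_cast hn
    push_cast at h1
    have h3 : (0 : ℝ) ≤ n := Nat.cast_nonneg n
    nlinarith
  · intro c hc
    obtain ⟨n₀, hn₀⟩ := exists_nat_ge (16 * Real.log (1 / c))
    refine ⟨n₀, fun n hn => ?_⟩
    have h1 := mm_ge (zero_le_one.trans hm) n
    have h2 : (n₀ : ℝ) ≤ n := by exact_mod_cast hn
    have h3 : (0 : ℝ) ≤ n := Nat.cast_nonneg n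
    have h4 : 16 * Real.log (1 / c) ≤ mm m₀ n := by nlinarith
    have h4' : 0 ≤ mm m₀ n := zero_le_one.trans (mm_one_le hm n)
    have h5 : Real.log (1 / c) = - Real.log c := by rw [one_div, Real.log_inv]
    have h6 : Real.exp (-(mm m₀ n) / 16) ≤ c := by
      calc Real.exp (-(mm m₀ n) / 16) ≤ Real.exp (Real.log c) :=
            Real.exp_le_exp.2 (by linarith)
        _ = c := Real.exp_log hc
    refine ⟨h6, le_trans ?_ h6⟩
    show Real.exp (-601 * mm m₀ n) ≤ _
    exact Real.exp_le_exp.2 (by linarith)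
  · intro E _ D hD b N
    refine (hsm E D hD b N).trans (mul_le_mul_of_nonneg_right ?_
      (Jn_nonneg D hΘ0.le hΘ1.le b))
    exact div_le_div_of_nonneg_left hΘ0.le (by norm_num) (by linarith)

theorem exp24 : (10485760000 : ℝ) ≤ Real.exp 24 := by
  have h1 : (2.7 : ℝ) ≤ Real.exp 1 := (by norm_num : (2.7 : ℝ) ≤ 2.7182818283).trans
    Real.exp_one_gt_d9.le
  have h2 : Real.exp 24 = Real.exp 1 ^ 24 := by rw [← Real.exp_nat_mul]; norm_num
  rw [h2]
  exact le_trans (by norm_num) (pow_le_pow_left₀ (by norm_num) h1 24)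

theorem good {κ : ℝ} (hκ : 1 ≤ κ) :
    ∃ P : Par, Good (2 * Real.exp (-41000000) / κ ^ 4) (1 / 4) (1 / 4) P ∧
      Small κ (2 * Real.exp (-41000000) / κ ^ 4) (1 / 4) (1 / 4) P := by
  have hκ0 : 0 < κ := by linarith
  have hlκ : 0 ≤ Real.log κ := Real.log_nonneg hκ
  have e24 := exp24
  set a := Real.exp (-24) with ha
  have a0 : 0 < a := Real.exp_pos _
  have a1 : Real.exp 24 * a = 1 := by rw [ha, ← Real.exp_add]; simp
  have a2 : 10485760000 * a ≤ 1 := by nlinarith
  set y := Real.exp (-153600) with hy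
  have y0 : 0 < y := Real.exp_pos _
  have y1 : y ≤ 1 := Real.exp_le_one_iff.2 (by norm_num)
  have y2 : a ^ 6400 = y := by rw [ha, hy, ← Real.exp_nat_mul]; norm_num
  have hx : 0 < a * y := mul_pos a0 y0
  have hxa : a * y ≤ a := by nlinarith
  have hx1 : a * y ≤ 1 / 100 := by linarith
  have hl : Real.log 160 ≤ 159 := by
    have := Real.log_le_sub_one_of_pos (show (0 : ℝ) < 160 by norm_num)
    linarith
  set L : ℝ := 41000000 - 153624 - Real.log 160 + 4 * Real.log κ with hLdef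
  set m₀ : ℝ := 60 + Real.log κ / 100 with hm₀
  have hL : 40000000 ≤ L := by linarith
  have hp : pp (a * y) L = 2 * Real.exp (-41000000) / κ ^ 4 := by
    have h1 : Real.exp (-L) = Real.exp (153624 - 41000000) * 160 / κ ^ 4 := by
      rw [← Real.exp_log (show (0 : ℝ) < 160 by norm_num), ← Real.exp_add,
        ← Real.exp_log (show (0 : ℝ) < κ ^ 4 by positivity), ← Real.exp_sub, hLdef, Real.log_pow]
      congr 1
      push_cast
      ring
    have h2 : a * y * Real.exp (153624 - 41000000) = Real.exp (-41000000) := by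
      rw [ha, hy, ← Real.exp_add, ← Real.exp_add]
      congr 1
      ring
    unfold pp
    rw [h1, ← h2]
    ring
  have hr0 := xr_pos (t := a / (1 / 4)) (m₀ := m₀) (L := L) hx hx1
  have hr1 := xr_le (t := a / (1 / 4)) (m₀ := m₀) (L := L) hx hx1
  have hT : Th (1 / 4) (1 / 4) (par (a * y) (a / (1 / 4)) m₀ L) =
      xr (1 / 4) (par (a * y) (a / (1 / 4)) m₀ L) + a := by
    rw [Th_eq, xr_eq]
    ring
  have hp0 := pp_pos (L := L) hx
  have hp1 := pp_le hx (by linarith : 0 ≤ L)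
  have e60 : Real.exp 60 = Real.exp 24 * Real.exp 24 * Real.exp 12 := by
    rw [← Real.exp_add, ← Real.exp_add]
    norm_num
  have e12 : 1 ≤ Real.exp 12 := Real.one_le_exp (by norm_num)
  have e1 : 10 * Real.exp 24 ≤ Real.exp 60 := by
    rw [e60]
    have : 10 * Real.exp 24 ≤ Real.exp 24 * Real.exp 24 := by nlinarith
    nlinarith
  refine ⟨par (a * y) (a / (1 / 4)) m₀ L, hp ▸ good_of hκ hx hx1 (by positivity) (by linarith)
    (by linarith) hL (by linarith) ?_ ?_ ?_⟩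
  · rw [hT]
    set z := xr (1 / 4) (par (a * y) (a / (1 / 4)) m₀ L) + a with hz
    have z0 : a ≤ z := by linarith
    have z1 : z ≤ 1 / 2 := by linarith
    have z2 : 0 < z * (1 - z) := mul_pos (by linarith) (by linarith)
    have z3 : 1 / (z * (1 - z)) ≤ 2 * Real.exp 24 := by
      rw [div_le_iff₀ z2]
      have : a / 2 ≤ z * (1 - z) := by nlinarith
      nlinarith
    refine le_trans ?_ (by linarith : 60 ≤ m₀)
    rw [Real.log_le_iff_le_exp (by positivity)]
    linarith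
  · rw [hT]
    set z := xr (1 / 4) (par (a * y) (a / (1 / 4)) m₀ L) + a with hz
    have z0 : a ≤ z := by linarith
    have z2 : 0 < z := by linarith
    have z3 : 4 / z ≤ 4 * Real.exp 24 := by
      rw [div_le_iff₀ z2]
      nlinarith
    have z4 : Real.log (4 / z) ≤ 60 := by
      rw [Real.log_le_iff_le_exp (by positivity)]
      linarith
    rw [mul_div_right_comm, Real.log_mul (by positivity) hκ0.ne']
    linarith
  · refine H318.oneC_param (by norm_num) a0 (by norm_num; linarith) le_rfl hr0.le ?_ hp0.le ?_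
      (by linarith) (by norm_num) (by norm_num) (by linarith)
    · rw [y2]
      push_cast
      nlinarith
    · rw [y2]
      nlinarith

open H352 R763 in
theorem sock {κ p s₁ s₂ : ℝ} {P : Par} (hκ : 1 ≤ κ) (hG : H316.Good p s₁ s₂ P)
    (hmain : Small κ p s₁ s₂ P) {E : Type} [Fintype E] (M : Matroid E) :
    ∃ D : Cores E L4, D.w = w4 p s₁ s₂ ∧ D.v = .v ∧
      (∀ lt : E → E → Prop, IsStrictTotalOrder E lt → D.Ok M lt) ∧
      ∀ lt : E → E → Prop, IsStrictTotalOrder E lt → ∀ b, b ∉ M.closure {f | lt b f} →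
        ∑ z ∈ univ.erase b, ∑ j ∈ Icc 1 D.n, EX (fun _ => D.w)
          (fun ω : E → L4 => if D.Ev lt j b z ω then 1 else 0) ≤ p / (2 * κ) := by
  obtain ⟨hp, hs1, hs2, hsum, hg, hg1, hn, hn1, ht, ht1, hT, hT1, hk0, -, -, -, hall, hkap, hde,
    -⟩ := hG
  have h0 : ∀ j, 0 ≤ P.eps j ∧ 0 ≤ P.lam j ∧ 0 ≤ P.zet j := fun j =>
    ⟨(hall j).1, (hall j).2.2.1, (hall j).2.2.2.2.1⟩
  have hlt1 : ∀ j, P.eps j < 1 ∧ P.lam j < 1 ∧ P.zet j < 1 := fun j =>
    ⟨(hall j).2.1, (hall j).2.2.2.1, (hall j).2.2.2.2.2⟩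
  have hg1' : 0 < 1 - P.g := by linarith
  have hn1' : 0 < 1 - P.n := by linarith
  have ht1' : 0 < 1 - P.t := by linarith
  obtain ⟨n₁, hn₁⟩ := hkap (Fintype.card E)
  obtain ⟨n₂, hn₂⟩ := hde ((1 - P.t) ^ Fintype.card E) (pow_pos ht1' _)
  obtain ⟨n₃, hn₃⟩ := hde ((1 - P.g) ^ Fintype.card E * (1 - P.n) ^ Fintype.card E)
    (mul_pos (pow_pos hg1' _) (pow_pos hn1' _))
  set n := max n₁ (max n₂ n₃) with hndef
  have hok : ∀ lt : E → E → Prop, IsStrictTotalOrder E lt →
      (inst M hp.le hs1.le hs2 hsum P n).Ok M lt := fun lt hlt =>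
    cores_ok hp.le hs1.le hs2 hsum hg.le hg1.le hn.le hn1.le ht.le ht1.le hk0 h0 hlt1
      (hn₁ n (le_max_left _ _)) (hn₂ n ((le_max_left _ _).trans (le_max_right _ _))).1
      (hn₃ n ((le_max_right _ _).trans (le_max_right _ _))).2 lt hlt
  refine ⟨inst M hp.le hs1.le hs2 hsum P n, rfl, rfl, hok,
    fun lt hlt b hb => ?_⟩
  have hirr : ∀ e, ¬ lt e e := fun e => hlt.irrefl e
  have hw0 := R763.w4_nonneg hp.le hs1.le hs2 hsum
  have hz : ∀ z : E, ∑ j ∈ Icc 1 n, EX (fun _ : E => w4 p s₁ s₂)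
      (fun ω : E → L4 => if (inst M hp.le hs1.le hs2 hsum P n).Ev lt j b z ω then (1 : ℝ) else 0) ≤
      p * (Th s₁ s₂ P / (2 * κ) * Jn (DC M lt z) (Th s₁ s₂ P) b) := by
    intro z
    have e1 : ∑ j ∈ Icc 1 n, EX (fun _ : E => w4 p s₁ s₂)
        (fun ω : E → L4 => if (inst M hp.le hs1.le hs2 hsum P n).Ev lt j b z ω then (1 : ℝ) else 0) =
        ∑ j ∈ range n, EX (fun _ : E => w4 p s₁ s₂) (fun ω : E → L4 =>
          if (inst M hp.le hs1.le hs2 hsum P n).Ev lt (j + 1) b z ω then (1 : ℝ) else 0) := by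
      rw [range_eq_Ico, sum_Ico_add' (fun j => EX (fun _ : E => w4 p s₁ s₂) (fun ω : E → L4 =>
          if (inst M hp.le hs1.le hs2 hsum P n).Ev lt j b z ω then (1 : ℝ) else 0)) 0 n 1, zero_add]
      rfl
    rw [e1]
    have e2 : ∀ j ∈ range n, EX (fun _ : E => w4 p s₁ s₂) (fun ω : E → L4 =>
          if (inst M hp.le hs1.le hs2 hsum P n).Ev lt (j + 1) b z ω then (1 : ℝ) else 0) ≤
        p * PR p s₁ s₂ (fun V R I => ind (Ev (DC M lt z) P R I j b V)) := by
      intro j _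
      have e3 := EX_indep_label (E := E) (w4_sum p s₁ s₂) z .v
        (fun ω => ind (EvH M lt P j b z ω)) fun ω l => by
          show H316.ind _ = H316.ind _
          rw [EvH_update hirr]
      have e4 : EX (fun _ : E => w4 p s₁ s₂) (fun ω : E → L4 =>
          if (inst M hp.le hs1.le hs2 hsum P n).Ev lt (j + 1) b z ω then (1 : ℝ) else 0) ≤
          EX (fun _ : E => w4 p s₁ s₂)
            (fun ω => if ω z = .v then ind (EvH M lt P j b z ω) else 0) := by
        refine EX_mono (fun _ => hw0) fun ω => ?_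
        by_cases hev : (inst M hp.le hs1.le hs2 hsum P n).Ev lt (j + 1) b z ω
        · obtain ⟨h5, h6⟩ := ev_EvH hev
          rw [if_pos hev, if_pos h5, R763.ind_true h6]
        · rw [if_neg hev]
          split_ifs
          · exact R763.ind_nonneg' _
          · exact le_rfl
      refine e4.trans ?_
      rw [e3]
      refine mul_le_mul_of_nonneg_left ?_ hp.le
      unfold PR
      exact EX_mono (fun _ => hw0) fun ω => R763.ind_mono EvH_ev
    refine (sum_le_sum e2).trans ?_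
    rw [← mul_sum]
    exact mul_le_mul_of_nonneg_left (hmain E (DC M lt z) (DC_up M lt z) b n) hp.le
  have hent := rowENT E M lt (Th s₁ s₂ P) hT.le hT1.le b
  have hfin : ∑ z ∈ univ.erase b, p * (Th s₁ s₂ P / (2 * κ) * Jn (DC M lt z) (Th s₁ s₂ P) b) ≤
      p / (2 * κ) := by
    rw [← mul_sum, ← mul_sum]
    have e5 : Th s₁ s₂ P * ∑ z ∈ univ.erase b, Jn (DC M lt z) (Th s₁ s₂ P) b ≤ 1 := hent
    rw [div_mul_eq_mul_div, ← mul_div_assoc]
    exact div_le_div_of_nonneg_right (by nlinarith) (by linarith)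
  exact (sum_le_sum fun z _ => hz z).trans hfin

end Vale.Agent.N331
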