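import Vale.Agent.N331.Defs
import Vale.Agent.N331.Inter
import Vale.Agent.N331.Num

/-!
# P331: assembly
-/

namespace Vale.Agent.N331

open Finset MeasureTheory Vale.Agent.P331 Vale.Agent.P331.H819 Vale.Agent.P331.H489
  Vale.Agent.P331.H352
open scoped ENNReal NNReal Classical

variable {E L : Type} [Fintype E] [Fintype L] [DecidableEq L] {M : Matroid E}

theorem sel_of_good {D : Frame E L} {c : ℝ}
    (h : ∀ lt : E → E → Prop, IsStrictTotalOrder E lt → ∀ b, b ∉ M.closure {f | lt b f} →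
      c ≤ EX (fun _ => D.w) (fun ω : E → L => if Good D M lt b ω then 1 else 0)) :
    Sel (D.data M) (ENNReal.ofReal c) := by
  intro lt hlt b hb
  refine (ENNReal.ofReal_le_ofReal (h lt hlt b hb)).trans (le_of_eq ?_)
  have h1 : ENNReal.ofReal (EX (fun _ => D.w) (fun ω : E → L =>
      if Good D M lt b ω then 1 else 0)) =
      ∑ ω : E → L, ENNReal.ofReal (∏ e, D.w (ω e)) *
        (if Good D M lt b ω then 1 else 0) := by
    unfold EX
    dsimp only
    rw [ENNReal.ofReal_sum_of_nonneg fun ω _ =>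
      mul_nonneg (prod_nonneg fun e _ => D.w0 _) ind0]
    refine Finset.sum_congr rfl fun ω _ => ?_
    by_cases hP : Good D M lt b ω
    · rw [if_pos hP, if_pos hP, mul_one, mul_one]
    · rw [if_neg hP, if_neg hP, mul_zero, mul_zero, ENNReal.ofReal_zero]
  rw [h1]
  refine Finset.sum_congr rfl fun ω _ => ?_
  by_cases hP : Good D M lt b ω
  · rw [if_pos hP]
    exact congrArg _ (if_pos hP).symm
  · rw [if_neg hP]
    exact congrArg _ (if_neg hP).symm

theorem good_of_ev {D : Cores E L} (hM : M.E = Set.univ) {lt : E → E → Prop}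
    (hlt : IsStrictTotalOrder E lt) (hD : D.Ok M lt) {c : ℝ} {b : E}
    (hb : b ∉ M.closure {f | lt b f})
    (h : ∑ z ∈ univ.erase b, ∑ j ∈ Icc 1 D.n, EX (fun _ => D.w)
        (fun ω : E → L => if D.Ev lt j b z ω then 1 else 0) ≤ c) :
    D.w D.v - c ≤ EX (fun _ => D.frame.w)
      (fun ω : E → L => if Good D.frame M lt b ω then 1 else 0) := by
  have h1 := good_ge hM hlt hD.frame hb
  have h2 : ∑ z ∈ univ.erase b, EX (fun _ => D.frame.w)
      (fun ω : E → L => if Blame D.frame lt b z ω then 1 else 0) ≤ c := by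
    refine le_trans (sum_le_sum fun z _ => ?_) h
    rw [← EX_sum]
    refine EX_mono (fun _ l => D.w0 l) fun ω => ?_
    by_cases hbl : Blame D.frame lt b z ω
    · rw [if_pos hbl]
      obtain ⟨j, hj, h1⟩ := blame_ev hbl
      have h3 := single_le_sum (f := fun j => if D.Ev lt j b z ω then (1 : ℝ) else 0)
        (fun _ _ => ind0) hj
      rwa [if_pos h1] at h3
    · rw [if_neg hbl]
      exact sum_nonneg fun _ _ => ind0
  have h3 : D.frame.w D.frame.v = D.w D.v := rfl
  linarith

/-- indicator -/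
noncomputable def i1 (P : Prop) : ℝ≥0∞ := if P then 1 else 0

omit [DecidableEq L] in
theorem law_aux (W : L → ℝ) (h0 : ∀ l, 0 ≤ W l) (h1 : ∑ l, W l = 1) (t : L → Prop) {p : ℝ}
    (hp : ∑ l ∈ univ.filter t, W l = p) (X : Finset E) (Q : (E → L) → Prop)
    (hQ : ∀ ω, Q ω ↔ ∀ e, t (ω e) ↔ e ∈ X) :
    ∑ ω : E → L, ENNReal.ofReal (∏ e, W (ω e)) * i1 (Q ω) =
      ENNReal.ofReal (p ^ X.card * (1 - p) ^ Xᶜ.card) := by
  have h2 : ∀ e : E, ∑ l ∈ univ.filter (fun l => t l ↔ e ∈ X), W l =
      if e ∈ X then p else 1 - p := by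
    intro e
    by_cases he : e ∈ X
    · simp only [he, iff_true, if_true, hp]
    · have h2 := sum_filter_add_sum_filter_not univ t W
      simp only [he, iff_false, if_false]
      linarith
  have h3 : p ^ X.card * (1 - p) ^ Xᶜ.card =
      ∏ e, ∑ l ∈ univ.filter (fun l => t l ↔ e ∈ X), W l := by
    simp only [h2]
    rw [prod_ite, prod_const, prod_const, filter_mem_eq_inter, univ_inter,
      show univ.filter (fun e => ¬ e ∈ X) = Xᶜ by ext e; simp]
  rw [h3, prod_univ_sum, ENNReal.ofReal_sum_of_nonneg fun ω _ => prod_nonneg fun e _ => h0 _,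
    ← univ_inter (Fintype.piFinset _), ← sum_ite_mem]
  refine sum_congr rfl fun ω _ => ?_
  simp only [i1, hQ, Fintype.mem_piFinset, mem_filter, mem_univ, true_and, mul_ite, mul_one,
    mul_zero]

theorem obl_of {D : Data M} {p : ℝ} (h : ∀ X : Finset E,
    ∑ r, D.w r * i1 (univ.filter (D.T r) = X) =
      ENNReal.ofReal (p ^ X.card * (1 - p) ^ Xᶜ.card)) : Oblivious D.rule p :=
  ⟨fun _ => trivial, fun r => univ.filter (D.T r), fun X => (law_eq (D := D) _).trans (h X),
    fun _ _ _ hs => dec_local fun e he => hs e fun h => he (mem_filter.1 h).2,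
    fun _ _ _ _ hx => mem_filter.2 ⟨mem_univ _, hx.1⟩⟩

theorem obl_frame (D : Frame E L) : Oblivious (D.data M).rule (D.w D.v) :=
  obl_of fun X => law_aux D.w D.w0 D.w1 (· = D.v) (sum_eq_single_of_mem D.v (by simp)
    fun _ h h' => absurd (by simpa using h) h') X
    (fun ω => univ.filter ((D.data M).T ω) = X) fun ω => Finset.ext_iff.trans (by
      simp only [mem_filter, mem_univ, true_and]
      exact Iff.rfl)

theorem obl_dat {ι : Type} (M : ι → Matroid E) (D : ι → Frame E L) (w : Bool → ℝ)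
    (hw : ∑ l, w l = 1) (h0 : ∀ l, 0 ≤ w l) (i₀ : ι) (hv : ∀ i, (D i).v = (D i₀).v) :
    Oblivious (dat M D w hw h0 i₀ hv).rule (w false * (D i₀).w (D i₀).v) := by
  refine obl_of fun X => ?_
  rw [← law_aux (fun x : Bool × L => w x.1 * (D i₀).w x.2)
    (fun x => mul_nonneg (h0 _) ((D i₀).w0 _))
    (by rw [Fintype.sum_prod_type]; dsimp only; rw [← sum_mul_sum, hw, (D i₀).w1, mul_one])
    (fun x => x = (false, (D i₀).v)) (sum_eq_single_of_mem (false, (D i₀).v) (by simp)
      fun _ h h' => absurd (by simpa using h) h') X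
    (fun ω => ∀ e, ω e = (false, (D i₀).v) ↔ e ∈ X) fun _ => Iff.rfl]
  refine (Fintype.sum_equiv (Equiv.arrowProdEquivProdArrow E (fun _ => Bool) fun _ => L) _ _
    fun ω => ?_).symm
  rw [prod_mul_distrib]
  refine congrArg _ (congrArg i1 (propext ?_))
  refine Iff.trans ?_ Finset.ext_iff.symm
  simp only [mem_filter, mem_univ, true_and]
  refine forall_congr' fun e => iff_congr ?_ Iff.rfl
  change _ ↔ ¬ (ω e).1 = true ∧ (ω e).2 = (D i₀).v
  simp [Prod.ext_iff]

theorem one (M : Matroid E) (hM : M.E = Set.univ) :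
    ∃ R : OnlineRule M, R.IsCompetitive (ENNReal.ofReal (Real.exp (-41000000))) ∧
      Robust R (opt M) (Real.exp (-41000000)) ∧ Oblivious R (2 * Real.exp (-41000000)) ∧
      ∀ w : E → ℝ≥0, ∃ B : Finset E, M.Indep B ∧ ∑ b ∈ B, (w b : ℝ≥0∞) = opt M w ∧
        ∀ b ∈ B, ENNReal.ofReal (Real.exp (-41000000)) ≤
          R.law {r | ∀ o : Order E, b ∈ accepted (R.accept r w) (history w o)} := by
  obtain ⟨P, hG, hS⟩ := good le_rfl
  obtain ⟨D, hw, hv, hok, hsum⟩ := sock le_rfl hG hS M
  have hp : D.w D.v = 2 * Real.exp (-41000000) := by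
    rw [hw, hv]
    exact (by rw [one_pow, div_one] : _ / (1 : ℝ) ^ 4 = _)
  have h : Sel (D.frame.data M) (ENNReal.ofReal (Real.exp (-41000000))) :=
    sel_of_good fun lt hlt b hb => le_trans (by rw [hp]; linarith)
      (good_of_ev hM hlt (hok lt hlt) hb (hsum lt hlt b hb))
  exact ⟨(D.frame.data M).rule, Data.competitive _ hM h, fun μ hμ π =>
    have := hμ.1
    robust_of (measurable_opt M) (h.opt_le hM) μ hμ.2 π, hp ▸ obl_frame D.frame,
    fun w => ⟨_, indep_Gr hM w, sum_Gr hM w, fun b hb => h.elem w (mem_filter.1 hb).2⟩⟩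

theorem many (k : ℕ) (N : Fin k → Matroid E) (hk : 0 < k) (hN : ∀ i, (N i).E = Set.univ) :
    ∃ R : OnlineRule (Matroid.freeOn (Set.univ : Set E)),
      (∀ r s h, (h.map Prod.fst).Nodup → ∀ i, (N i).Indep (accepted (R.accept r s) h)) ∧
      Robust R (optAll N) (Real.exp (-41000000) / (4 * k ^ 6)) ∧
      Oblivious R (Real.exp (-41000000) / k ^ 5) := by
  have hk1 : (1 : ℝ) ≤ k := by exact_mod_cast hk
  obtain ⟨P, hG, hS⟩ := good hk1
  choose D hw hv hok hsum using fun i => sock hk1 hG hS (N i)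
  let i₀ : Fin k := ⟨0, hk⟩
  have hδ : 1 / (2 * k : ℝ) ≤ 1 := by
    rw [div_le_one (by positivity)]
    linarith
  let w : Bool → ℝ := H316.tw (1 - 1 / (2 * k))
  have w1 : ∑ l, w l = 1 := H316.R763.tw_sum _
  have w0 : ∀ l, 0 ≤ w l := H316.R763.tw_nonneg (by linarith) (sub_le_self _ (by positivity))
  have wf : w false = 1 / (2 * k) := by simp [w, H316.tw]
  have hv' : ∀ i, (D i).frame.v = (D i₀).frame.v := fun i => (hv i).trans (hv i₀).symm
  have hp : ∀ i, (D i).w (D i).v = 2 * Real.exp (-41000000) / k ^ 4 := fun i => by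
    rw [hw, hv]
    rfl
  have hp0 : (D i₀).frame.w (D i₀).frame.v = 2 * Real.exp (-41000000) / k ^ 4 := hp i₀
  refine ⟨(dat N (fun i => (D i).frame) w w1 w0 i₀ hv').rule, dat_indep N _ w w1 w0 i₀ hv',
    fun μ hμ π => ?_, ?_⟩
  · have := hμ.1
    refine robust_of (f := optAll N) ?_ (fun u => ?_) μ hμ.2 π
    · refine Measurable.iSup fun I => Measurable.iSup fun _ => ?_
      fun_prop
    · unfold optAll
      simp only [ENNReal.mul_iSup]
      refine iSup₂_le fun I hI => le_of_eq_of_le ?_ (dat_gain N (fun i => (D i).frame) w w1 w0 i₀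
        hv' hN (fun i => (hw i).trans (hw i₀).symm) ?_ (fun i lt hlt z hz => ?_) u hI)
      · rw [hp0, Fintype.card_fin]
        congr 2
        field_simp
      · rw [wf, Fintype.card_fin]
        field_simp
      · have h1 := good_of_ev (hN i) hlt (hok i lt hlt) hz (hsum i lt hlt z hz)
        rw [hp i] at h1
        rw [hp0, Fintype.card_fin]
        exact h1
  · have h1 := obl_dat N (fun i => (D i).frame) w w1 w0 i₀ hv'
    rw [wf, hp0] at h1
    rwa [show Real.exp (-41000000) / k ^ 5 = 1 / (2 * k) * (2 * Real.exp (-41000000) / k ^ 4) by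
      field_simp]

theorem hybrid (D : E → Measure ℝ≥0) (h : ∀ e, IsProbabilityMeasure (D e)) :
    Hybrid ((Measure.pi D).prod (Measure.pi D)) := ⟨inferInstance, hybrid_pi D⟩

end Vale.Agent.N331
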