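import Vale.Agent.P331.F.FinalA

/-!
# P331: static rules are order-oblivious and work for correlated laws
-/

namespace Vale.Agent.N331

open MeasureTheory Vale.Agent.P331 Vale.Agent.P331.Osel Vale.Agent.P331.H819
open scoped ENNReal NNReal Classical

variable {E : Type} [Fintype E] {M : Matroid E} {D : Data M}

omit [Fintype E] in
theorem hist_eq (v : E → ℝ≥0) (o : Order E) : history v o = hs v o.1.reverse := by
  unfold history hs
  rw [List.map_reverse]

theorem dec_congr {r : D.Sd} {s v u : E → ℝ≥0} (h1 : ∀ f, ¬ D.T r f → s f = u f)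
    (h2 : ∀ f, D.T r f → v f = u f) (l : List E) (e : E) :
    D.dec r s (hs v l) (e, v e) ↔ D.dec r u (hs u l) (e, u e) := by
  rw [Data.dec_iff, Data.dec_iff]
  refine and_congr_right fun he => forall_congr' fun B => forall_congr' fun hB => ?_
  have hB1 : ∀ f ∈ B, D.T r f := fun f hf => (hB f hf).2
  have hB2 : ∀ f ∈ insert e B, D.T r f := by
    rintro f (rfl | hf)
    exacts [he, hB1 f hf]
  rw [Data.LE_congr h1 h2 hB1, Data.LE_congr h1 h2 hB2,
    Data.LE_congr (u := u) (fun _ _ => rfl) (fun _ _ => rfl) hB1,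
    Data.LE_congr (u := u) (fun _ _ => rfl) (fun _ _ => rfl) hB2]

theorem accepted_congr {r : D.Sd} {s v u : E → ℝ≥0} (h1 : ∀ f, ¬ D.T r f → s f = u f)
    (h2 : ∀ f, D.T r f → v f = u f) (l : List E) :
    accepted (D.dec r s) (hs v l) = accepted (D.dec r u) (hs u l) := by
  induction l with
  | nil => rfl
  | cons e l ih =>
    change accepted (D.dec r s) ((e, v e) :: hs v l) = accepted (D.dec r u) ((e, u e) :: hs u l)
    rw [accepted, accepted, ih]
    by_cases h : D.dec r s (hs v l) (e, v e)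
    · rw [if_pos h, if_pos ((dec_congr h1 h2 l e).1 h)]
    · rw [if_neg h, if_neg fun h' => h ((dec_congr h1 h2 l e).2 h')]

theorem gain_congr {r : D.Sd} {s v u : E → ℝ≥0} (h1 : ∀ f, ¬ D.T r f → s f = u f)
    (h2 : ∀ f, D.T r f → v f = u f) (o : Order E) :
    D.rule.gain r s v o = D.rule.gain r u u o := by
  change ∑ e ∈ accepted (D.dec r s) (history v o), (v e : ℝ≥0∞) =
    ∑ e ∈ accepted (D.dec r u) (history u o), (u e : ℝ≥0∞)
  rw [hist_eq, hist_eq, ← accepted_congr h1 h2]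
  exact Finset.sum_congr rfl fun e he => by rw [h2 e ((Data.LE_accepted r s v _).2 e he).2]

theorem mem_accepted {r : D.Sd} {u : E → ℝ≥0} {z : E} (hT : D.T r z) (hz : D.Safe r (klt u) z)
    (o : Order E) : z ∈ accepted (D.dec r u) (history u o) := by
  rw [hist_eq]
  refine Data.mem_accepted_of_good (List.nodup_reverse.2 o.2.1) (List.mem_reverse.2 (o.2.2 z))
    hT fun B hB hl => ?_
  have hB2 : ∀ f ∈ insert z B, D.T r f := by
    rintro f (rfl | hf)
    exacts [hT, (hB f hf).2]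
  rw [Data.LE_congr (u := u) (fun _ _ => rfl) (fun _ _ => rfl) fun f hf => (hB f hf).2] at hl
  rw [Data.LE_congr (u := u) (fun _ _ => rfl) (fun _ _ => rfl) hB2]
  exact hz B hB hl

theorem LP_congr {r : D.Sd} {s s' : E → ℝ≥0} (h : ∀ e, ¬ D.T r e → s e = s' e)
    {B : Set (E × ℝ≥0)} (hB : ∀ p ∈ B, D.T r p.1) : D.LP r s B ↔ D.LP r s' B := by
  have h1 : ∀ f, (f ∈ Prod.fst '' B ∨ ¬ D.T r f) → Data.vl s B f = Data.vl s' B f := by
    intro f hf
    unfold Data.vl
    split_ifs with h2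
    · rfl
    · exact h f (hf.resolve_left fun ⟨p, hp, e⟩ => h2 ⟨p.2, e ▸ hp⟩)
  have h2 : ∀ f g, (f ∈ Prod.fst '' B ∨ ¬ D.T r f) → (g ∈ Prod.fst '' B ∨ ¬ D.T r g) →
      (klt (Data.vl s B) f g ↔ klt (Data.vl s' B) f g) := by
    intro f g hf hg
    unfold klt key
    rw [h1 f hf, h1 g hg]
  have h3 : ∀ f ∈ Prod.fst '' B, D.T r f := by
    rintro _ ⟨p, hp, rfl⟩
    exact hB p hp
  exact ⟨D.loc r _ _ _ h3 h2, D.loc r _ _ _ h3 fun f g hf hg => (h2 f g hf hg).symm⟩

theorem dec_local {r : D.Sd} {s s' : E → ℝ≥0} (h : ∀ e, ¬ D.T r e → s e = s' e) :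
    D.dec r s = D.dec r s' := by
  funext l x
  refine propext (and_congr_right fun hx => forall_congr' fun B => forall_congr' fun hB => ?_)
  have hB1 : ∀ p ∈ B, D.T r p.1 := fun p hp => (hB p hp).2
  have hB2 : ∀ p ∈ insert x B, D.T r p.1 := by
    rintro p (rfl | hp)
    exacts [hx, hB1 p hp]
  rw [LP_congr h hB1, LP_congr h hB2]

theorem indep_Gr (hM : M.E = Set.univ) (w : E → ℝ≥0) :
    M.Indep (Finset.univ.filter (Gr M w) : Finset E) := by
  have h1 := eRk_union_eq hM (key w) (key_inj w) ∅ (Finset.univ.filter (Gr M w))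
    (fun e he hcl => (Finset.mem_filter.1 he).2 (by
      refine M.closure_subset_closure ?_ hcl
      rw [Set.empty_union]
      exact fun f hf => hf.2))
  rw [Set.empty_union, M.eRk_empty, zero_add] at h1
  rw [Matroid.indep_iff_eRk_eq_encard_of_finite (Finset.finite_toSet _), h1,
    Set.encard_coe_eq_coe_finsetCard]

theorem sum_Gr (hM : M.E = Set.univ) (w : E → ℝ≥0) :
    ∑ b ∈ Finset.univ.filter (Gr M w), (w b : ℝ≥0∞) = opt M w :=
  le_antisymm (le_iSup₂_of_le (f := fun (I : Finset E) (_ : M.Indep (I : Set E)) =>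
    ∑ e ∈ I, (w e : ℝ≥0∞)) _ (indep_Gr hM w) le_rfl) (Data.opt_le_Gr hM w)

theorem law_eq (S : Set D.Sd) : D.rule.law S = ∑ r, D.w r * if r ∈ S then 1 else 0 := by
  let _ : MeasurableSpace D.Sd := ⊤
  have _ : MeasurableSingletonClass D.Sd := ⟨fun _ => trivial⟩
  change (Measure.count.withDensity D.w) S = _
  have hS : MeasurableSet S := trivial
  rw [withDensity_apply _ hS, ← lintegral_indicator hS, lintegral_count, tsum_fintype]
  refine Finset.sum_congr rfl fun r _ => ?_
  by_cases h : r ∈ S <;> simp [h]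

/-- the hypothesis: every element of the greedy basis is a safe test element with
probability at least `q` -/
def Sel (D : Data M) (q : ℝ≥0∞) : Prop :=
  ∀ lt : E → E → Prop, IsStrictTotalOrder E lt → ∀ z, z ∉ M.closure {f | lt z f} →
    q ≤ ∑ r, D.w r * (if D.T r z ∧ D.Safe r lt z then 1 else 0)

variable {q : ℝ≥0∞}

theorem Sel.elem (h : Sel D q) (w : E → ℝ≥0) {b : E} (hb : Gr M w b) :
    q ≤ D.rule.law {r | ∀ o, b ∈ accepted (D.rule.accept r w) (history w o)} := by
  refine (h (klt w) (Data.klt_strict w) b hb).trans (le_of_le_of_eq ?_ (law_eq (D := D) _).symm)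
  refine Finset.sum_le_sum fun r _ => mul_le_mul_right ?_ _
  split_ifs with h1 h2
  · exact le_rfl
  · exact absurd (mem_accepted h1.1 h1.2) h2
  · exact zero_le
  · exact le_rfl

theorem Sel.opt_le (hM : M.E = Set.univ) (h : Sel D q) (u : E → ℝ≥0) :
    q * opt M u ≤ ∑ r, D.w r * ⨅ o, D.rule.gain r u u o := by
  rw [← sum_Gr hM, Finset.mul_sum]
  calc ∑ b ∈ Finset.univ.filter (Gr M u), q * (u b : ℝ≥0∞)
      ≤ ∑ b ∈ Finset.univ.filter (Gr M u),
        (∑ r, D.w r * (if D.T r b ∧ D.Safe r (klt u) b then 1 else 0)) * (u b : ℝ≥0∞) :=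
        Finset.sum_le_sum fun b hb => mul_le_mul_left
          (h (klt u) (Data.klt_strict u) b (Finset.mem_filter.1 hb).2) _
    _ = ∑ r, D.w r * ∑ b ∈ Finset.univ.filter (Gr M u),
        (if D.T r b ∧ D.Safe r (klt u) b then (u b : ℝ≥0∞) else 0) := by
        simp only [Finset.sum_mul, Finset.mul_sum]
        rw [Finset.sum_comm]
        refine Finset.sum_congr rfl fun r _ => Finset.sum_congr rfl fun b _ => ?_
        split_ifs <;> simp
    _ ≤ _ := by
        refine Finset.sum_le_sum fun r _ => mul_le_mul_right (le_iInf fun o => ?_) _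
        rw [← Finset.sum_filter]
        refine Finset.sum_le_sum_of_subset fun b hb => ?_
        have h1 := (Finset.mem_filter.1 hb).2
        exact mem_accepted h1.1 h1.2 o

theorem robust_aux {S : Type} [MeasurableSpace S] [Fintype S] [MeasurableSingletonClass S]
    {f : (E → ℝ≥0) → ℝ≥0∞} (hf : Measurable f) (P : Measure S) [IsProbabilityMeasure P] (G : S × (E → ℝ≥0) × (E → ℝ≥0) → ℝ≥0∞)
    (hw : Measurable G) (T : S → Finset E)
    (hT : ∀ r s v, G (r, s, v) = G (r, (T r).piecewise v s, (T r).piecewise v s))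
    (h : ∀ u, q * f u ≤ ∑ r, P {r} * G (r, u, u))
    (μ : Measure ((E → ℝ≥0) × (E → ℝ≥0))) [IsProbabilityMeasure μ]
    (hμ : ∀ X : Finset E, μ.map (fun ω => X.piecewise ω.2 ω.1) = μ.map Prod.snd) :
    q * ∫⁻ ω, f ω.2 ∂μ ≤ ∫⁻ ω, G ω ∂(P.prod μ) := by
  have hw' : ∀ r : S, Measurable fun u : E → ℝ≥0 => G (r, u, u) :=
    fun r => hw.comp (f := fun u : E → ℝ≥0 => (r, u, u)) (by fun_prop)
  rw [lintegral_prod _ hw.aemeasurable, lintegral_fintype (μ := P)]
  have key : ∀ r : S, ∫⁻ y, G (r, y) ∂μ = ∫⁻ y, G (r, y.2, y.2) ∂μ := by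
    intro r
    have hX : Measurable fun ω : (E → ℝ≥0) × (E → ℝ≥0) => (T r).piecewise ω.2 ω.1 := by
      refine measurable_pi_lambda _ fun e => ?_
      by_cases he : e ∈ T r
      · simp only [Finset.piecewise_eq_of_mem _ _ _ he]
        fun_prop
      · simp only [Finset.piecewise_eq_of_notMem _ _ _ he]
        fun_prop
    rw [← lintegral_map (hw' r) measurable_snd, ← hμ (T r), lintegral_map (hw' r) hX]
    exact lintegral_congr fun y => hT r y.1 y.2
  simp only [key]
  have hm : Measurable fun ω : (E → ℝ≥0) × (E → ℝ≥0) => f ω.2 := hf.comp measurable_snd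
  have hm' : ∀ r : S, Measurable fun y : (E → ℝ≥0) × (E → ℝ≥0) => G (r, y.2, y.2) :=
    fun r => (hw' r).comp measurable_snd
  rw [← lintegral_const_mul _ hm]
  have h1 : ∫⁻ y, q * f y.2 ∂μ ≤ ∫⁻ y, ∑ r, P {r} * G (r, y.2, y.2) ∂μ :=
    lintegral_mono fun y => h y.2
  refine h1.trans (le_of_eq ?_)
  rw [lintegral_finsetSum _ fun r _ => (hm' r).const_mul (P {r})]
  refine Finset.sum_congr rfl fun r _ => ?_
  rw [lintegral_const_mul _ (hm' r), mul_comm]

theorem robust_of {f : (E → ℝ≥0) → ℝ≥0∞} (hf : Measurable f)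
    (h : ∀ u, q * f u ≤ ∑ r, D.w r * ⨅ o, D.rule.gain r u u o)
    (μ : Measure ((E → ℝ≥0) × (E → ℝ≥0))) [IsProbabilityMeasure μ]
    (hμ : ∀ X : Finset E, μ.map (fun ω => X.piecewise ω.2 ω.1) = μ.map Prod.snd)
    (π : D.rule.Seed × (E → ℝ≥0) × (E → ℝ≥0) → Order E) :
    q * ∫⁻ ω, f ω.2 ∂μ ≤
      ∫⁻ ω, D.rule.gain ω.1 ω.2.1 ω.2.2 (π ω) ∂(D.rule.law.prod μ) := by
  let _ : Fintype D.rule.Seed := (inferInstance : Fintype D.Sd)
  have _ : MeasurableSingletonClass D.rule.Seed := ⟨fun _ => trivial⟩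
  refine (robust_aux hf D.rule.law (fun ω => ⨅ o, D.rule.gain ω.1 ω.2.1 ω.2.2 o)
    (Measurable.iInf fun o => measurable_gain D.rule o) (fun r => Finset.univ.filter (D.T r))
    (fun r s v => iInf_congr fun o => ?_)
    (fun u => (h u).trans (le_of_eq (Finset.sum_congr rfl fun r _ => ?_))) μ hμ).trans
    (lintegral_mono fun ω => iInf_le _ (π ω))
  · refine gain_congr (fun f hf => ?_) (fun f hf => ?_) o
    · exact (Finset.piecewise_eq_of_notMem _ _ _ fun h => hf (Finset.mem_filter.1 h).2).symm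
    · exact (Finset.piecewise_eq_of_mem _ _ _ (Finset.mem_filter.2 ⟨Finset.mem_univ _, hf⟩)).symm
  · exact congrArg (· * _) (D.law_singleton r).symm

theorem hybrid_pi (L : E → Measure ℝ≥0) [∀ e, IsProbabilityMeasure (L e)] (X : Finset E) :
    ((Measure.pi L).prod (Measure.pi L)).map (fun ω => X.piecewise ω.2 ω.1) =
      ((Measure.pi L).prod (Measure.pi L)).map Prod.snd := by
  have h1 := (measurePreserving_snd (μ := Measure.pi L) (ν := Measure.pi L))
  have h2 := h1.comp (measurePreserving_swap_sel L fun e => decide (e ∈ X))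
  refine Eq.trans ?_ (h2.map_eq.trans h1.map_eq.symm)
  congr 1
  funext ω e
  by_cases he : e ∈ X <;> simp [sel, he]

end Vale.Agent.N331
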